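import Vale.Agent.P209.Final

namespace Vale.Agent.Results.P209.SuffTwoPowAndVolume

open Vale.Agent.P209

/-- Sufficiency in Conjecture A (Siegel-Yao) for all `n ≥ 2` and
* all `k ≤ 2 ^ n`, with no further assumption, and
* all `k`, when the volume of the other balls is at most `3 ^ (-n)` times the volume left free by
  a largest ball. -/
theorem result (n k : ℕ) (hn : 2 ≤ n) (R : ℝ) (r : Fin k → ℝ) (hR : 0 < R)
    (hr : ∀ i, 0 < r i)
    (hvol : ∑ i, r i ^ n < R ^ n)
    (hpair : ∀ i j, i ≠ j → r i + r j < R)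
    (hextra : k ≤ 2 ^ n ∨ ∃ i0, (∀ i, r i ≤ r i0) ∧
      3 ^ n * ∑ i ∈ Finset.univ.filter (fun i => i ≠ i0), r i ^ n < R ^ n - r i0 ^ n) :
    BallsPack n r R := by
  obtain ⟨m, rfl⟩ : ∃ m, n = m + 1 := ⟨n - 1, by omega⟩
  have hlt : ∀ i, r i < R := by
    intro i
    have h1 : r i ^ (m + 1) ≤ ∑ i, r i ^ (m + 1) :=
      Finset.single_le_sum (f := fun i => r i ^ (m + 1)) (fun i _ => (pow_pos (hr i) _).le)
        (Finset.mem_univ i)
    exact lt_of_pow_lt_pow_left₀ (m + 1) hR.le (h1.trans_lt hvol)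
  rcases hextra with hk | ⟨i0, hmax, hv⟩
  · rcases Nat.eq_zero_or_pos k with h0 | h0
    · subst h0
      exact pack_of_nodes (fun i => Fin.elim0 i) (fun i => Fin.elim0 i) (fun i => Fin.elim0 i)
        (fun i => Fin.elim0 i) (fun i => Fin.elim0 i)
    · have : Nonempty (Fin k) := ⟨⟨0, h0⟩⟩
      obtain ⟨i0, hi0⟩ := Finite.exists_max r
      exact pack_upto hk hR hpair hlt i0 hi0
  · exact pack_all (by omega) hR hr hpair hlt i0 hmax hv

end Vale.Agent.Results.P209.SuffTwoPowAndVolume
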